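import Vale.Agent.P275.H341.Psh

/-! # P275, lowest degree: row A2 -/

namespace Vale.Agent.P275.R2.H123

open Filter Topology Asymptotics Vale.Agent.P275.H341

/-- the partition with one part -/
def row1 (k : ℕ) : Fin k → ℕ := fun i => if (i : ℕ) = 0 then k else 0

theorem sum_choose_two (k : ℕ) : ∑ j ∈ Finset.range k, j.choose 2 = k.choose 3 := by
  induction k with
  | zero => simp
  | succ n ih => rw [Finset.sum_range_succ, ih, Nat.choose_succ_succ' n 2]; ring

theorem sum_fin_choose (k : ℕ) : ∑ i : Fin k, (k - 1 - (i : ℕ)).choose 2 = k.choose 3 := by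
  rw [Fin.sum_univ_eq_sum_range (fun i => (k - 1 - i).choose 2) k,
    Finset.sum_range_reflect (fun j => j.choose 2) k, sum_choose_two]

theorem choose_id (a m : ℕ) :
    (a + m + 1).choose 2 + m.choose 2 = (a + 1).choose 2 + m * (a + m) := by
  have h : (((a + m + 1).choose 2 + m.choose 2 : ℕ) : ℚ)
      = (((a + 1).choose 2 + m * (a + m) : ℕ) : ℚ) := by
    push_cast [Nat.cast_choose_two]
    ring
  exact_mod_cast h

theorem expo {k : ℕ} (lam : Fin k → ℕ) :
    k.choose 3 + ∑ i : Fin k, (lam i + (k - 1 - i) + 1).choose 2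
      = ∑ i : Fin k, (lam i + 1).choose 2
        + ∑ i : Fin k, (k - 1 - (i : ℕ)) * (lam i + (k - 1 - i)) := by
  rw [← sum_fin_choose, ← Finset.sum_add_distrib, ← Finset.sum_add_distrib]
  refine Finset.sum_congr rfl fun i _ => ?_
  rw [add_comm ((k - 1 - (i : ℕ)).choose 2)]
  exact choose_id _ _

theorem num_le (y : ℝ) (hy : 2 ≤ y) (l : ℕ) :
    ∏ t ∈ Finset.range l, ‖((y : ℂ) ^ (t + 1) - 1)‖ ≤ y ^ ((l + 1).choose 2) := by
  induction l with
  | zero => simp
  | succ n ih =>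
    rw [Finset.prod_range_succ, Nat.choose_succ_succ' (n + 1) 1, Nat.choose_one_right,
      pow_add y (n + 1), mul_comm (y ^ (n + 1))]
    refine mul_le_mul ih ?_ (norm_nonneg _) (by positivity)
    have h1 : (1 : ℝ) ≤ y ^ (n + 1) := one_le_pow₀ (by linarith)
    have h2 : ((y : ℂ) ^ (n + 1) - 1) = ((y ^ (n + 1) - 1 : ℝ) : ℂ) := by push_cast; ring
    rw [h2, Complex.norm_real, Real.norm_of_nonneg (by linarith)]
    linarith

theorem den_ge (y : ℝ) (hy : 2 ≤ y) {a b : ℕ} (h : b < a) :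
    y ^ a / 2 ≤ ‖((y : ℂ) ^ a - (y : ℂ) ^ b)‖ := by
  have h0 : (0 : ℝ) < y := by linarith
  have h1 : y ^ b * 2 ≤ y ^ a := by
    have h3 : y ^ (b + 1) ≤ y ^ a := pow_le_pow_right₀ (by linarith) h
    have h4 : y ^ b * 2 ≤ y ^ (b + 1) := by
      rw [pow_succ]; exact mul_le_mul_of_nonneg_left hy (by positivity)
    linarith
  have h2 : ((y : ℂ) ^ a - (y : ℂ) ^ b) = ((y ^ a - y ^ b : ℝ) : ℂ) := by push_cast; ring
  have h5 : 0 < y ^ b := by positivity
  rw [h2, Complex.norm_real, Real.norm_of_nonneg (by linarith)]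
  linarith

theorem norm_hk_le {k : ℕ} {lam : Fin k → ℕ} (hl : ∀ i j : Fin k, i ≤ j → lam j ≤ lam i) (y : ℝ)
    (hy : 2 ≤ y) :
    ‖hk (y : ℂ) lam‖ ≤ 2 ^ (∑ i : Fin k, (k - 1 - (i : ℕ))) *
      y ^ (∑ i : Fin k, (lam i + 1).choose 2) := by
  have h0 : (0 : ℝ) < y := by linarith
  have hden : ∏ i : Fin k, (y ^ (lam i + (k - 1 - i)) / 2) ^ (k - 1 - (i : ℕ))
      ≤ ∏ i : Fin k, ∏ j ∈ Finset.Ioi i,
        ‖((y : ℂ) ^ (lam i + (k - 1 - i)) - (y : ℂ) ^ (lam j + (k - 1 - j)))‖ := by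
    refine Finset.prod_le_prod (fun i _ => by positivity) fun i _ => ?_
    have hc : (Finset.Ioi i).card = k - 1 - (i : ℕ) := Fin.card_Ioi i
    rw [← hc, ← Finset.prod_const]
    refine Finset.prod_le_prod (fun j _ => by positivity) fun j hj => ?_
    have hij : i < j := Finset.mem_Ioi.mp hj
    have h1 := hl i j hij.le
    have h2 : (i : ℕ) < j := hij
    have h3 := j.isLt
    exact den_ge y hy (by omega)
  have hpos : 0 < ∏ i : Fin k, (y ^ (lam i + (k - 1 - i)) / 2) ^ (k - 1 - (i : ℕ)) :=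
    Finset.prod_pos fun i _ => by positivity
  have hnum : ‖(y : ℂ) ^ (Nat.choose k 3)‖ *
      (∏ i : Fin k, ∏ t ∈ Finset.range (lam i + (k - 1 - i)), ‖((y : ℂ) ^ (t + 1) - 1)‖)
      ≤ y ^ (k.choose 3) * ∏ i : Fin k, y ^ ((lam i + (k - 1 - i) + 1).choose 2) := by
    have h1 : ‖(y : ℂ) ^ (Nat.choose k 3)‖ = y ^ (k.choose 3) := by
      rw [norm_pow, Complex.norm_real, Real.norm_of_nonneg h0.le]
    rw [h1]
    refine mul_le_mul_of_nonneg_left ?_ (by positivity)
    exact Finset.prod_le_prod (fun i _ => Finset.prod_nonneg fun _ _ => norm_nonneg _)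
      fun i _ => num_le y hy _
  have hid : y ^ (k.choose 3) * ∏ i : Fin k, y ^ ((lam i + (k - 1 - i) + 1).choose 2)
      = 2 ^ (∑ i : Fin k, (k - 1 - (i : ℕ))) * y ^ (∑ i : Fin k, (lam i + 1).choose 2) *
        ∏ i : Fin k, (y ^ (lam i + (k - 1 - i)) / 2) ^ (k - 1 - (i : ℕ)) := by
    have h1 : ∏ i : Fin k, (y ^ (lam i + (k - 1 - i)) / 2) ^ (k - 1 - (i : ℕ))
        = y ^ (∑ i : Fin k, (k - 1 - (i : ℕ)) * (lam i + (k - 1 - i))) /
          2 ^ (∑ i : Fin k, (k - 1 - (i : ℕ))) := by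
      rw [← Finset.prod_pow_eq_pow_sum, ← Finset.prod_pow_eq_pow_sum, ← Finset.prod_div_distrib]
      refine Finset.prod_congr rfl fun i _ => ?_
      rw [div_pow, ← pow_mul, mul_comm (lam i + _)]
    rw [h1, Finset.prod_pow_eq_pow_sum, ← pow_add, expo, pow_add]
    have h2 : (2 : ℝ) ^ (∑ i : Fin k, (k - 1 - (i : ℕ))) ≠ 0 := by positivity
    field_simp
  unfold hk
  rw [norm_div, norm_mul, norm_prod, norm_prod]
  simp only [norm_prod]
  rw [div_le_iff₀ (lt_of_lt_of_le hpos hden)]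
  refine hnum.trans (hid.le.trans ?_)
  exact mul_le_mul_of_nonneg_left hden (by positivity)

theorem sum_le {k : ℕ} {lam : Fin k → ℕ} (hl : lam ∈ Pt k) (hne : lam ≠ row1 k) :
    ∑ i : Fin k, (lam i + 1).choose 2 ≤ k * (k + 1) / 2 - 1 := by
  rw [Pt, Finset.mem_filter, Finset.Nat.mem_antidiagonalTuple] at hl
  obtain ⟨hs, hm⟩ := hl
  have hle : ∀ i, lam i ≤ k - 1 := by
    intro i
    by_contra hcon
    apply hne
    have hik : k ≤ lam i := by have := i.isLt; omega
    have h1 : ∀ j, j ≠ i → lam i + lam j ≤ k := by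
      intro j hj
      have h2 : ∑ x ∈ ({i, j} : Finset (Fin k)), lam x ≤ ∑ x, lam x :=
        Finset.sum_le_sum_of_subset (Finset.subset_univ _)
      rw [Finset.sum_pair hj.symm, hs] at h2
      exact h2
    have hi0 : (i : ℕ) = 0 := by
      by_contra hi
      have h3 : (⟨0, by have := i.isLt; omega⟩ : Fin k) ≤ i := by
        rw [Fin.le_def]; simp
      have h4 := hm _ _ h3
      have h5 := h1 ⟨0, by have := i.isLt; omega⟩ (by
        intro h6; apply hi; rw [← h6])
      have h6 := i.isLt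
      omega
    funext j
    unfold row1
    by_cases hj : j = i
    · subst hj
      have h2 : lam j ≤ ∑ x, lam x := Finset.single_le_sum (fun _ _ => Nat.zero_le _)
        (Finset.mem_univ j)
      rw [hs] at h2
      rw [if_pos hi0]; omega
    · have h2 := h1 j hj
      have h3 : (j : ℕ) ≠ 0 := by
        intro h4; apply hj; apply Fin.ext; omega
      rw [if_neg h3]; omega
  have h2 : ∀ i, 2 * (lam i + 1).choose 2 ≤ k * lam i := by
    intro i
    have h3 := hle i
    have h4 := i.isLt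
    have h5 : 2 * (lam i + 1).choose 2 = (lam i + 1) * lam i := by
      rw [Nat.choose_two_right]
      have h6 : (lam i + 1) * (lam i + 1 - 1) = (lam i + 1) * lam i := by simp
      rw [h6]
      exact Nat.mul_div_cancel' (by
        rw [mul_comm]; exact (Nat.even_mul_succ_self (lam i)).two_dvd)
    rw [h5]
    exact Nat.mul_le_mul_right _ (by omega)
  have h3 : 2 * ∑ i : Fin k, (lam i + 1).choose 2 ≤ k * k := by
    rw [Finset.mul_sum]
    calc ∑ i : Fin k, 2 * (lam i + 1).choose 2 ≤ ∑ i : Fin k, k * lam i :=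
          Finset.sum_le_sum fun i _ => h2 i
      _ = k * k := by rw [← Finset.mul_sum, hs]
  rcases Nat.lt_or_ge k 2 with hk | hk
  · interval_cases k
    · simp
    · exfalso
      have h4 := hle 0
      have h5 : ∑ x, lam x = lam 0 := by simp
      omega
  · have h4 : 2 * (k * (k + 1) / 2) = k * (k + 1) :=
      Nat.mul_div_cancel' (Nat.even_mul_succ_self k).two_dvd
    have h5 : k * (k + 1) = k * k + k := by ring
    omega

/-- ROW A2 -/
theorem rowA2 {k d : ℕ} (hd : 1 ≤ d) {lam : Fin k → ℕ} (hl : lam ∈ Pt k) (hne : lam ≠ row1 k) :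
    (fun x : ℝ => hk ((x : ℂ) ^ d) lam) =O[atTop] fun x : ℝ => x ^ (d * (k * (k + 1) / 2 - 1)) := by
  have hm : ∀ i j : Fin k, i ≤ j → lam j ≤ lam i := (Finset.mem_filter.mp hl).2
  refine IsBigO.of_bound (2 ^ (∑ i : Fin k, (k - 1 - (i : ℕ)))) ?_
  filter_upwards [eventually_ge_atTop (2 : ℝ)] with x hx
  have h0 : (0 : ℝ) < x := by linarith
  have hy : 2 ≤ x ^ d := by
    calc (2 : ℝ) ≤ x := hx
      _ = x ^ 1 := (pow_one x).symm
      _ ≤ x ^ d := pow_le_pow_right₀ (by linarith) hd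
  have h1 := norm_hk_le hm (x ^ d) hy
  have h2 : ((x ^ d : ℝ) : ℂ) = (x : ℂ) ^ d := by push_cast; ring
  rw [h2] at h1
  refine h1.trans (mul_le_mul_of_nonneg_left ?_ (by positivity))
  rw [Real.norm_of_nonneg (by positivity), ← pow_mul]
  exact pow_le_pow_right₀ (by linarith) (Nat.mul_le_mul_left _ (sum_le hl hne))

end Vale.Agent.P275.R2.H123
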